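import Vale.Agent.P235.H141.CX.Defs
import Vale.Agent.P235.K5.H12.Fin
import Vale.Agent.P235.H141.Star.Piece

/-!
# P235, line CX, row [CX4]: `MetStmt → CXStmt` (helper490)
-/

set_option autoImplicit false
set_option linter.all false

namespace Vale.Agent.P235.CX.H490

open SimpleGraph Vale.Agent.P235 Vale.Agent.P235.K5 Vale.Agent.P235.H684 Vale.Agent.P235.H141.CX

/-- marginals of a product law -/
theorem marg {n : ℕ} {κ : Fin n → Type} [∀ t, Fintype (κ t)] (q : ∀ t, κ t → ℝ)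
    (h1 : ∀ t, ∑ k, q t k = 1) (t : Fin n) (f : κ t → ℝ) :
    ∑ ω : (∀ t, κ t), (∏ s, q s (ω s)) * f (ω t) = ∑ k, q t k * f k := by
  classical
  let f' : ∀ s, κ s → ℝ := Function.update (fun s (_ : κ s) => (1 : ℝ)) t f
  have ht : f' t = f := Function.update_self _ _ _
  have hs : ∀ s, s ≠ t → ∀ k : κ s, f' s k = 1 := by
    intro s hs k
    show Function.update (fun s (_ : κ s) => (1 : ℝ)) t f s k = 1
    rw [Function.update_of_ne hs]
  have e := Finset.prod_univ_sum (fun s => (Finset.univ : Finset (κ s)))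
    (fun s k => q s k * f' s k)
  rw [Fintype.piFinset_univ] at e
  have e1 : ∀ ω : (∀ t, κ t), ∏ s, (q s (ω s) * f' s (ω s)) = (∏ s, q s (ω s)) * f (ω t) := by
    intro ω
    rw [Finset.prod_mul_distrib]
    congr 1
    rw [Finset.prod_eq_single t (fun s _ hst => hs s hst _)
      (fun h => absurd (Finset.mem_univ t) h), ht]
  have e2 : ∏ s, ∑ k, q s k * f' s k = ∑ k, q t k * f k := by
    rw [Finset.prod_eq_single t _ (fun h => absurd (Finset.mem_univ t) h), ht]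
    intro s _ hst
    rw [← h1 s]
    exact Finset.sum_congr rfl fun k _ => by rw [hs s hst, mul_one]
  rw [← e2, e]
  exact Finset.sum_congr rfl fun ω _ => (e1 ω).symm

/-- the random functions of a bag -/
theorem bagfam {k m : ℕ} {V : Type} [Finite V] {H : SimpleGraph V} {B : ℕ → Set V}
    (h : Glued k H m B) (hnew : ∀ t < m, ∃ v ∈ B t, v ∉ Bef B t) {C : ℝ} (hC : 1 ≤ C)
    {d : V → V → ℝ} (hd : IsMet d) (hG : Gen H d) {t : ℕ} (ht : t < m)
    (hD : DistortionLE (H.induce (B t)) C) :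
    ∃ (r : V → ℝ) (κ : Type) (_ : Fintype κ) (q : κ → ℝ) (g : κ → V → ℝ), (∀ k, 0 ≤ q k) ∧
      ∑ k, q k = 1 ∧ (∀ k, ∀ x ∈ B t, |g k x| ≤ r x) ∧
      (∀ x ∈ B t, ∀ y ∈ B t, min (d x y) (r x + r y) / 48 - |r x - r y| / 3 ≤
        ∑ k, q k * |g k x - g k y|) ∧
      (∀ x ∈ B t, ∀ y ∈ B t, ∑ k, q k * |g k x - g k y| ≤ (2 * C + 2) * d x y) ∧
      (∀ x, 0 ≤ r x) ∧ (∀ x y, |r x - r y| ≤ d x y) ∧ (∀ x, ∀ a ∈ Adh B t, r x ≤ d x a) ∧
      ∀ x y, d x y ≤ r x + r y ∨ ∃ b ∈ Adh B t, r y = d y b := by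
  classical
  obtain ⟨v0, hv0, -⟩ := hnew t ht
  have hd' : IsMet fun x y : B t => d x y :=
    ⟨fun x => hd.self _, fun x y hxy => hd.pos _ _ fun e => hxy (Subtype.ext e),
      fun x y => hd.symm _ _, fun x y z => hd.tri _ _ _⟩
  have hG' : Gen (H.induce (B t)) fun x y : B t => d x y := h.gen_bag hd hG ht
  have hne : Nonempty (B t) := ⟨⟨v0, hv0⟩⟩
  have hconn : (H.induce (B t)).Connected := ⟨Gen.preconnected hd' hG'⟩
  obtain ⟨f, hf, f1, f2⟩ := H141.Star.emb_of_gen hD hconn hd' hG'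
  obtain ⟨A, hA, hA1, hA2⟩ : ∃ A : Set V, A.Nonempty ∧ Adh B t ⊆ A ∧
      ((∀ a ∈ A, a ∈ Adh B t) ∨ ∃ v, A = {v}) := by
    by_cases hS : (Adh B t).Nonempty
    · exact ⟨Adh B t, hS, le_rfl, Or.inl fun a ha => ha⟩
    · exact ⟨{v0}, ⟨v0, rfl⟩, fun a ha => absurd ⟨a, ha⟩ hS, Or.inr ⟨v0, rfl⟩⟩
  have hν : ∀ x, ∃ a ∈ A, ∀ b ∈ A, d x a ≤ d x b := fun x =>
    Set.exists_min_image A (d x) (Set.toFinite A) hA
  choose ν hνA hνm using hν
  set r : V → ℝ := fun x => d x (ν x) with hr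
  have hr0 : ∀ x, 0 ≤ r x := fun x => hd.nonneg _ _
  have hr1 : ∀ x y, r x - r y ≤ d x y := by
    intro x y
    have h3 := hνm x (ν y) (hνA y)
    have h4 := hd.tri x y (ν y)
    simp only [hr]
    linarith
  have hrl : ∀ x y, |r x - r y| ≤ d x y := by
    intro x y
    rw [abs_le]
    have h3 := hr1 y x
    rw [hd.symm y x] at h3
    constructor
    · linarith
    · exact hr1 x y
  obtain ⟨κ, hκ, q, g, hq, hq1, hb, hlo, hup⟩ := H141.Star.fam_all hC hd' hf f1 f2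
    (fun x : B t => r x) (fun x => hr0 x) (fun x y => hrl x y)
  have hext : ∀ k (x : V) (hx : x ∈ B t),
      (if hx : x ∈ B t then g k ⟨x, hx⟩ else 0) = g k ⟨x, hx⟩ := fun k x hx => dif_pos hx
  refine ⟨r, κ, hκ, q, fun k x => if hx : x ∈ B t then g k ⟨x, hx⟩ else 0, hq, hq1, ?_, ?_, ?_,
    hr0, hrl, fun x a ha => hνm x a (hA1 ha), ?_⟩
  · intro k x hx
    show |if hx : x ∈ B t then g k ⟨x, hx⟩ else 0| ≤ r x
    rw [hext k x hx]
    exact hb k ⟨x, hx⟩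
  · intro x hx y hy
    refine (hlo ⟨x, hx⟩ ⟨y, hy⟩).trans (le_of_eq ?_)
    refine Finset.sum_congr rfl fun k _ => ?_
    beta_reduce
    rw [hext k x hx, hext k y hy]
  · intro x hx y hy
    refine le_trans (le_of_eq ?_) (hup ⟨x, hx⟩ ⟨y, hy⟩)
    refine Finset.sum_congr rfl fun k _ => ?_
    beta_reduce
    rw [hext k x hx, hext k y hy]
  · intro x y
    rcases hA2 with h2 | ⟨v, hv⟩
    · right
      exact ⟨ν y, h2 _ (hνA y), rfl⟩
    · left
      have hx : ν x = v := by have := hνA x; rw [hv] at this; exact this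
      have hy : ν y = v := by have := hνA y; rw [hv] at this; exact this
      show d x y ≤ d x (ν x) + d y (ν y)
      rw [hx, hy, hd.symm y v]
      exact hd.tri x v y

/-- the average -/
theorem avg {k m : ℕ} {V : Type} [Finite V] {H : SimpleGraph V} {B : ℕ → Set V}
    (h : Glued k H m B) (hnew : ∀ t < m, ∃ v ∈ B t, v ∉ Bef B t) (T : BTree m B) {C : ℝ}
    (hC : 1 ≤ C) {d : V → V → ℝ} (hd : IsMet d) (hG : Gen H d)
    (hD : ∀ t < m, DistortionLE (H.induce (B t)) C) {c0 C2 : ℝ} (hc0 : 0 < c0) (hc1 : c0 ≤ 1)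
    (hC2 : 0 < C2)
    (hM : ∀ φ : ℕ → V → ℝ, (∀ t < m, ∀ a ∈ Adh B t, φ t a = 0) →
        (∀ t < m, ∀ x ∈ B t, ∀ a ∈ Adh B t, |φ t x| ≤ d x a) →
        ∃ F : V → V → ℝ, IsL1 F ∧
          (∀ t < m, ∀ x ∈ B t, ∀ y ∈ B t, F x y ≤ d x y + |φ t x - φ t y|) ∧
          (∀ t < m, ∀ x ∈ B t, ∀ y ∈ B t, c0 * |φ t x - φ t y| ≤ F x y) ∧
          (∀ t < m, ∀ x ∈ B t, ∀ a ∈ Adh B t, c0 * d x a ≤ F x a) ∧
          ∀ t < m, 0 < t → ∀ x ∈ h.Sub T t, ∀ y ∉ h.Sub T t, ∀ r : ℝ, 0 < r →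
            (∀ a ∈ Adh B t, r ≤ d x a) → r ≤ C2 * F x y) :
    ∃ F : V → V → ℝ, IsL1 F ∧ (∀ t < m, ∀ x ∈ B t, ∀ y ∈ B t, F x y ≤ (2 * C + 5) * d x y) ∧
      (∀ t < m, ∀ x ∈ B t, ∀ y ∈ B t, c0 ^ 2 / 288 * d x y ≤ F x y) ∧
      ∀ t < m, 0 < t → ∀ x ∈ h.Sub T t, ∀ y ∉ h.Sub T t, ∀ r : ℝ, 0 < r →
        (∀ a ∈ Adh B t, r ≤ d x a) → r ≤ C2 * F x y := by
  classical
  have hfam := fun t : Fin m => bagfam h hnew hC hd hG t.2 (hD t.1 t.2)
  choose r κ hκ q g hq hq1 hb hlo hup hr0 hrl hra hcov using hfam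
  -- the function `r`
  have hr00 : ∀ t : Fin m, ∀ a ∈ Adh B t, r t a = 0 := by
    intro t a ha
    have h1 := hra t a a ha
    rw [hd.self] at h1
    exact le_antisymm h1 (hr0 t a)
  let φr : ℕ → V → ℝ := fun t x => if ht : t < m then r ⟨t, ht⟩ x else 0
  have hφr : ∀ t (ht : t < m) x, φr t x = r ⟨t, ht⟩ x := fun t ht x => dif_pos ht
  obtain ⟨Fr, hFr, r1, r2, r3, r4⟩ := hM φr
    (fun t ht a ha => by rw [hφr t ht]; exact hr00 ⟨t, ht⟩ a ha)
    (fun t ht x hx a ha => by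
      rw [hφr t ht, abs_of_nonneg (hr0 _ _)]
      exact hra ⟨t, ht⟩ x a ha)
  -- the random functions
  let φ : (∀ t, κ t) → ℕ → V → ℝ := fun ω t x =>
    if ht : t < m then g ⟨t, ht⟩ (ω ⟨t, ht⟩) x else 0
  have hφ : ∀ ω t (ht : t < m) x, φ ω t x = g ⟨t, ht⟩ (ω ⟨t, ht⟩) x :=
    fun ω t ht x => dif_pos ht
  have hall := fun ω => hM (φ ω)
    (fun t ht a ha => by
      rw [hφ ω t ht]
      have h1 := hb ⟨t, ht⟩ (ω ⟨t, ht⟩) a ha.1
      rw [hr00 ⟨t, ht⟩ a ha] at h1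
      exact abs_eq_zero.1 (le_antisymm h1 (abs_nonneg _)))
    (fun t ht x hx a ha => by
      rw [hφ ω t ht]
      exact (hb ⟨t, ht⟩ (ω ⟨t, ht⟩) x hx).trans (hra ⟨t, ht⟩ x a ha))
  choose Fω hFω w1 w2 w3 w4 using hall
  let w : (∀ t, κ t) → ℝ := fun ω => ∏ s, q s (ω s)
  have hw : ∀ ω, 0 ≤ w ω := fun ω => Finset.prod_nonneg fun s _ => hq s _
  have hmarg : ∀ (t : Fin m) (f : κ t → ℝ), ∑ ω, w ω * f (ω t) = ∑ k, q t k * f k :=
    fun t f => marg q hq1 t f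
  have hone : ∀ t : Fin m, ∑ ω, w ω = 1 := by
    intro t
    have h1 := hmarg t fun _ => 1
    simp only [mul_one] at h1
    rw [h1, hq1]
  set E : V → V → ℝ := fun x y => ∑ ω, w ω * Fω ω x y with hE
  have hE1 : IsL1 E := IsL1.sum Finset.univ (fun ω x y => w ω * Fω ω x y)
    fun ω _ => (hFω ω).smul (hw ω)
  refine ⟨fun x y => E x y + Fr x y, hE1.add hFr, ?_, ?_, ?_⟩
  · intro t ht x hx y hy
    have h1 : E x y ≤ d x y + ∑ k, q ⟨t, ht⟩ k * |g ⟨t, ht⟩ k x - g ⟨t, ht⟩ k y| := by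
      calc E x y ≤ ∑ ω, w ω * (d x y + |φ ω t x - φ ω t y|) :=
            Finset.sum_le_sum fun ω _ => mul_le_mul_of_nonneg_left (w1 ω t ht x hx y hy) (hw ω)
        _ = (∑ ω, w ω) * d x y +
              ∑ ω, w ω * |g ⟨t, ht⟩ (ω ⟨t, ht⟩) x - g ⟨t, ht⟩ (ω ⟨t, ht⟩) y| := by
            rw [Finset.sum_mul, ← Finset.sum_add_distrib]
            refine Finset.sum_congr rfl fun ω _ => ?_
            rw [hφ ω t ht, hφ ω t ht]
            ring
        _ = _ := by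
            rw [hone ⟨t, ht⟩, one_mul,
              hmarg ⟨t, ht⟩ fun k => |g ⟨t, ht⟩ k x - g ⟨t, ht⟩ k y|]
    have h2 := hup ⟨t, ht⟩ x hx y hy
    have h3 := r1 t ht x hx y hy
    rw [hφr t ht, hφr t ht] at h3
    have h4 := hrl ⟨t, ht⟩ x y
    show E x y + Fr x y ≤ _
    linarith
  · intro t ht x hx y hy
    have h1 : c0 * ∑ k, q ⟨t, ht⟩ k * |g ⟨t, ht⟩ k x - g ⟨t, ht⟩ k y| ≤ E x y := by
      rw [← hmarg ⟨t, ht⟩ fun k => |g ⟨t, ht⟩ k x - g ⟨t, ht⟩ k y|, Finset.mul_sum]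
      refine Finset.sum_le_sum fun ω _ => ?_
      have h2 := mul_le_mul_of_nonneg_left (w2 ω t ht x hx y hy) (hw ω)
      rw [hφ ω t ht, hφ ω t ht] at h2
      linarith
    have h2 := hlo ⟨t, ht⟩ x hx y hy
    have h3 := r2 t ht x hx y hy
    rw [hφr t ht, hφr t ht] at h3
    have h4 := mul_le_mul_of_nonneg_left h2 hc0.le
    have h5 : 0 ≤ c0 * |r ⟨t, ht⟩ x - r ⟨t, ht⟩ y| := mul_nonneg hc0.le (abs_nonneg _)
    have hdn := hd.nonneg x y
    have hEn := hE1.nonneg x y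
    show _ ≤ E x y + Fr x y
    by_cases hc : c0 / 6 * d x y ≤ r ⟨t, ht⟩ x + r ⟨t, ht⟩ y
    · have h6 : c0 / 6 * d x y ≤ min (d x y) (r ⟨t, ht⟩ x + r ⟨t, ht⟩ y) := by
        refine le_min ?_ hc
        have : c0 / 6 * d x y ≤ 1 * d x y := mul_le_mul_of_nonneg_right (by linarith) hdn
        linarith
      have h7 := mul_le_mul_of_nonneg_left h6 hc0.le
      nlinarith
    · push Not at hc
      have h6 : c0 / 6 * d x y ≤ 1 * d x y := mul_le_mul_of_nonneg_right (by linarith) hdn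
      obtain ⟨b, hb1, hb2⟩ := (hcov ⟨t, ht⟩ x y).resolve_left (by linarith)
      have g1 := r3 t ht x hx b hb1
      have g2 := r1 t ht y hy b hb1.1
      rw [hφr t ht, hφr t ht, hr00 ⟨t, ht⟩ b hb1, sub_zero, abs_of_nonneg (hr0 _ _)] at g2
      have g3 := hFr.tri x y b
      have g4 := hd.tri x b y
      rw [hd.symm b y] at g4
      have g5 := hr0 ⟨t, ht⟩ x
      have g6 := hr0 ⟨t, ht⟩ y
      have g7 : c0 * (d x y - r ⟨t, ht⟩ y) ≤ c0 * d x b :=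
        mul_le_mul_of_nonneg_left (by linarith) hc0.le
      have g8 : r ⟨t, ht⟩ y ≤ c0 / 6 * d x y := by linarith
      have g9 : c0 * r ⟨t, ht⟩ y ≤ 1 * r ⟨t, ht⟩ y := mul_le_mul_of_nonneg_right hc1 g6
      have g10 : c0 ^ 2 / 288 * d x y ≤ c0 / 288 * d x y :=
        mul_le_mul_of_nonneg_right (by nlinarith) hdn
      have g11 : 0 ≤ c0 * d x y := mul_nonneg hc0.le hdn
      nlinarith
  · intro t ht h0 x hx y hy ρ hρ ha
    have h1 := r4 t ht h0 x hx y hy ρ hρ ha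
    have h2 := mul_nonneg hC2.le (hE1.nonneg x y)
    show ρ ≤ C2 * (E x y + Fr x y)
    rw [mul_add]
    linarith

/-- **[CX4]** -/
theorem cx4 (hMet : MetStmt) : CXStmt := by
  intro C k hC
  obtain ⟨c0, C2, hc0, hc1, hC2, hM⟩ := hMet (k + 1) (by omega)
  have hC5 : 0 < 2 * C + 5 := by linarith
  set c : ℝ := c0 ^ 2 / 288 / (2 * C + 5) with hcdef
  set C' : ℝ := C2 * (2 * C + 5) with hC'
  have hc : 0 < c := by rw [hcdef]; positivity
  have hC'0 : 0 < C' := by rw [hC']; positivity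
  have hcle : c ≤ 1 := by
    rw [hcdef, div_le_one hC5]
    nlinarith
  set e : ℝ := min (c / 2) (c / (8 * C')) / 2 with he
  have he0 : 0 < e := by
    have : 0 < min (c / 2) (c / (8 * C')) := lt_min (by positivity) (by positivity)
    rw [he]
    linarith
  have he1 : e ≤ 1 := by
    have : min (c / 2) (c / (8 * C')) ≤ c / 2 := min_le_left _ _
    rw [he]
    linarith
  refine ⟨1 / e, (one_le_div he0).2 he1, ?_⟩
  intro V _ G H n B hle hconn hGl hnew hD hone ℓ hℓ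
  classical
  have hGl' : Glued (k + 1) H n B :=
    ⟨hGl.cover, fun t ht => (hGl.card t ht).trans (Nat.le_succ k), hGl.clique, hGl.sep⟩
  have hpar : ∀ u, ∃ p, p ≤ u ∧ (u = 0 → p = 0) ∧ (0 < u → u < n → p < u ∧ Adh B u ⊆ B p ∧
      (Adh B u \ Adh B p).Subsingleton) := by
    intro u
    by_cases hu : 0 < u ∧ u < n
    · obtain ⟨t, h1, h2, h3⟩ := hone u hu.2 hu.1
      exact ⟨t, h1.le, fun h => absurd h hu.1.ne', fun _ _ => ⟨h1, h2, h3⟩⟩
    · exact ⟨0, Nat.zero_le _, fun _ => rfl, fun h1 h2 => absurd ⟨h1, h2⟩ hu⟩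
  choose p p1 p2 p3 using hpar
  let T : BTree n B := ⟨p, p2 0 rfl, p1, fun t h1 h2 => (p3 t h1 h2).1,
    fun t h1 h2 => (p3 t h1 h2).2.1⟩
  have hd := pathDist_isMet hconn hℓ
  have hgenG : Gen G (pathDist G ℓ) := by
    intro f hf x y
    exact pathDist_gen hconn (fun u v huv => (hf u v huv).trans (pathDist_adj hℓ huv)) x y
  have hgen : Gen H (pathDist G ℓ) := fun f hf => hgenG f (fun u v huv => hf u v (hle huv))
  obtain ⟨F, hF, hF1, hF2, hF3⟩ := avg hGl' hnew T hC hd hgen hD hc0 hc1 hC2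
    (hM V H n B hGl' T hnew (fun t ht h0 => (p3 t h0 ht).2.2) (pathDist G ℓ) hd hgen)
  have hA : IsL1 fun x y => 1 / (2 * C + 5) * F x y := hF.smul (by positivity)
  have hA0 : ∀ t < n, ∀ x ∈ B t, ∀ y ∈ B t, 1 / (2 * C + 5) * F x y ≤ pathDist G ℓ x y := by
    intro t ht x hx y hy
    rw [one_div, inv_mul_le_iff₀ hC5]
    exact hF1 t ht x hx y hy
  have hA1 : ∀ x y, 1 / (2 * C + 5) * F x y ≤ pathDist G ℓ x y := by
    refine hA.le_of_gen hgen fun u v huv => ?_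
    rcases le_total (hGl'.it u) (hGl'.it v) with h1 | h1
    · exact hA0 _ (hGl'.it_lt v) u (hGl'.edge huv h1) v (hGl'.it_mem v)
    · exact hA0 _ (hGl'.it_lt u) u (hGl'.it_mem u) v (hGl'.edge huv.symm h1)
  have hA2 : ∀ t < n, ∀ x ∈ B t, ∀ y ∈ B t, c * pathDist G ℓ x y ≤ 1 / (2 * C + 5) * F x y := by
    intro t ht x hx y hy
    have h1 := mul_le_mul_of_nonneg_left (hF2 t ht x hx y hy)
      (by positivity : 0 ≤ 1 / (2 * C + 5))
    refine le_trans (le_of_eq ?_) h1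
    rw [hcdef]
    ring
  have hN2 : ∀ t < n, 0 < t → ∀ x ∈ hGl'.Sub T t, ∀ y ∉ hGl'.Sub T t, ∀ r : ℝ, 0 < r →
      (∀ a ∈ Adh B t, r ≤ pathDist G ℓ x a) → r ≤ C' * (1 / (2 * C + 5) * F x y) := by
    intro t ht h0 x hx y hy r hr ha
    have h1 := hF3 t ht h0 x hx y hy r hr ha
    have h2 : C' * (1 / (2 * C + 5) * F x y) = C2 * F x y := by
      rw [hC']
      field_simp
    rw [h2]
    exact h1
  have hcr := K5.H12.cross hGl' T hd hc hcle hC'0 hA hA hA1 hA2 hN2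
  exact R2.H598.Emb.embedsL1 he0 ⟨fun x y => 1 / (2 * C + 5) * F x y, hA, fun x y => by
    have h1 := hcr x y
    show e * pathDist G ℓ x y ≤ 1 / (2 * C + 5) * F x y
    have h2 : e * pathDist G ℓ x y = min (c / 2) (c / (8 * C')) * pathDist G ℓ x y / 2 := by
      rw [he]; ring
    rw [h2]
    linarith, hA1⟩

end Vale.Agent.P235.CX.H490
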